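import Vale.Agent.H7.KTV.JSFibre
import Vale.Agent.H86.KTV.FibreModel

/-!
P335, simple-graph split, ROW R2 (board 232): the Johnson surplus inequality on the pair
fibres, `js` and `js_weak`, exactly as posted.  Proof: the fibre parametrisation
`Vale.Agent.H86.fibre_model`, the generic transfer `Vale.Agent.H7.js_of_fibre`, and the
Johnson-scheme inequality `Vale.Agent.H73.johnson_surplus`.
-/

namespace Vale.Agent.H7

open Finset SimpleGraph
open scoped Classical
open Vale.Agent.H90 (dot avgRel)
open Vale.Agent.H40.KTV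

variable {V : Type} [Fintype V]

theorem js (u v : V) (huv : u ≠ v) (f : SimpleGraph V → ℝ) :
    (∑ w, ∑ z, (if Dist4 u v w z then XT u v w z f else 0))
        + 2 * dot (QP u v f) (QP u v f)
      ≤ (1 / 4 : ℝ) * ∑ w, ∑ z, (if Dist4 u v w z then DT u v w z f else 0) :=
  js_of_fibre (fun u v huv G0 => Vale.Agent.H86.fibre_model u v huv G0) u v huv f

theorem js_weak (u v : V) (huv : u ≠ v) (f : SimpleGraph V → ℝ) :
    (∑ w, ∑ z, (if Dist4 u v w z then XT u v w z f else 0))
      ≤ (1 / 4 : ℝ) * ∑ w, ∑ z, (if Dist4 u v w z then DT u v w z f else 0) :=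
  js_weak_of_fibre (fun u v huv G0 => Vale.Agent.H86.fibre_model u v huv G0) u v huv f

end Vale.Agent.H7
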